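import Vale.Agent.P262.H44.Weighted
import Vale.Agent.P262.H395.KillStar

/-!
# P262, block WSTAR-K: the weighted star step on trees of labels with class dependent flags,
killed labels and the cut by the ball
-/

set_option linter.all false

open MeasureTheory ProbabilityTheory Set
open scoped ENNReal RealInnerProductSpace

namespace Vale.Agent.P262.H292

open Vale.Agent.P262.H44 Vale.Agent.P262.H59 Vale.Agent.P262.H395
open Vale.Agent.P262.H395.KTree
open Vale.Agent.P262.H493 (star)

variable {E : Type*} [NormedAddCommGroup E] [InnerProductSpace ℝ E] [FiniteDimensional ℝ E]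
  [MeasurableSpace E] [BorelSpace E] {h0 hT h1 : E → ℝ≥0∞}

/-- the input of `kill_ineq` holds for weighted regular triples -/
theorem flagIneqC {c Θ : ℝ} (hc0 : 0 ≤ c) (hc : c < 1 / 2) (hΘ : 0 < Θ) (hΘ1 : Θ ≤ 1 / 704)
    (h : RegC c Θ h0 hT h1) : FlagIneq (ENNReal.ofReal (704 * Θ)) h0 hT h1 := by
  intro C hC hCc W0 L hW hL x0 hroot
  have hr := h.indicator hΘ (by linarith) hC hCc
  have key := hr.star_tree hc0 hc hΘ hΘ1
    (valid_chainTree (g0 := C.indicator h0) (g1 := C.indicator h1) hr.m0 hr.m1 L W0 hW hL)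
    (deep_chainTree L) x0 (by rw [ofReal_quarter]; exact hroot)
  have e : (chainTree (C.indicator h0) (C.indicator h1) L).reg
      = {x | ∀ V ∈ L, ¬ Long h0 h1 C V x} := by
    rw [reg_chainTree]
    ext x
    simp only [Long, ofReal_half]
  rw [e] at key
  unfold Ineq
  rw [add_mul, one_mul]
  exact key

/-- a weight which is flat on the fibre does not destroy the long part -/
theorem flat_gen {w f0 f1 : E → ℝ≥0∞} (hwm : Measurable w) (mh : Measurable f1)
    (l0 : ∀ x, f0 x ≤ 1) (l1 : ∀ x, f1 x ≤ 1)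
    {W : Submodule ℝ E} {x : E} {ε a t : ℝ} (hε : 0 ≤ ε) (ht : 0 ≤ t)
    (hat : 23 / 50 * (t * (1 + ε) + ε) ≤ a - 11 / 20)
    (hf : FlatAt ε w W x)
    (h : ENNReal.ofReal a ≤ ENNReal.ofReal (11 / 20) + ENNReal.ofReal (23 / 50) *
      fib W f1 x) :
    ENNReal.ofReal t * fib W (fun x => w x * f0 x) x ≤
      fib W (fun x => w x * f1 x) x := by
  obtain ⟨m, h1, h2⟩ := hf
  have hlt : fib W f1 x ≠ ⊤ :=
    ne_top_of_le_ne_top ENNReal.one_ne_top (fib_le_one l1 x)
  have s1 : ENNReal.ofReal (t * (1 + ε) + ε) ≤ fib W f1 x := by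
    have h4 := h
    rw [← ENNReal.ofReal_toReal hlt, ← ENNReal.ofReal_mul (by norm_num),
      ← ENNReal.ofReal_add (by norm_num) (by positivity),
      ENNReal.ofReal_le_ofReal_iff (by positivity)] at h4
    rw [← ENNReal.ofReal_toReal hlt]
    apply ENNReal.ofReal_le_ofReal
    linarith
  have s2 : m * fib W f1 x ≤
      fib W (fun x => w x * f1 x) x + m * ENNReal.ofReal ε := by
    have mS : MeasurableSet {y | w y < m} := measurableSet_lt hwm measurable_const
    have mI : Measurable ({y | w y < m}.indicator (1 : E → ℝ≥0∞)) := measurable_one.indicator mS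
    have e1 : m * fib W f1 x = fib W (fun y => m * f1 y) x :=
      (fib_mul (inv_const W m) mh x).symm
    rw [e1]
    calc fib W (fun y => m * f1 y) x
        ≤ fib W (fun y => w y * f1 y + m * {y | w y < m}.indicator 1 y) x := by
          refine fib_mono (fun y => ?_) x
          by_cases hy : w y < m
          · rw [indicator_of_mem (show y ∈ {y | w y < m} from hy), Pi.one_apply, mul_one]
            refine le_trans ?_ le_add_self
            calc m * f1 y ≤ m * 1 := by
                  gcongr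
                  exact l1 y
              _ = m := mul_one _
          · rw [not_lt] at hy
            exact (mul_le_mul' hy le_rfl).trans le_self_add
      _ = fib W (fun x => w x * f1 x) x +
            m * fib W ({y | w y < m}.indicator 1) x := fib_lin W (hwm.mul mh) mI m x
      _ ≤ _ := by gcongr
  have s3 : ENNReal.ofReal t * fib W (fun x => w x * f0 x) x ≤
      m * ENNReal.ofReal (t * (1 + ε)) := by
    calc ENNReal.ofReal t * fib W (fun x => w x * f0 x) x
        ≤ ENNReal.ofReal t * fib W w x := by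
          gcongr
          refine fib_mono (fun y => ?_) x
          calc w y * f0 y ≤ w y * 1 := by
                gcongr
                exact l0 y
            _ = w y := mul_one _
      _ ≤ ENNReal.ofReal t * (ENNReal.ofReal (1 + ε) * m) := by gcongr
      _ = m * (ENNReal.ofReal t * ENNReal.ofReal (1 + ε)) := by ring
      _ = m * ENNReal.ofReal (t * (1 + ε)) := by rw [ENNReal.ofReal_mul ht]
  refine s3.trans ?_
  by_cases hm : m = ⊤
  · subst hm
    by_cases h0' : t * (1 + ε) ≤ 0
    · rw [ENNReal.ofReal_eq_zero.mpr h0', mul_zero]; exact bot_le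
    · push Not at h0'
      have h5 : ENNReal.ofReal ε < fib W f1 x := by
        refine lt_of_lt_of_le ?_ s1
        rw [ENNReal.ofReal_lt_ofReal_iff (by linarith)]
        linarith
      have h6 : fib W f1 x ≤ fib W ({y | w y = ⊤}.indicator f1) x +
          ENNReal.ofReal ε := by
        have mS : MeasurableSet {y | w y < ⊤} := measurableSet_lt hwm measurable_const
        have mI : Measurable ({y | w y < ⊤}.indicator (1 : E → ℝ≥0∞)) := measurable_one.indicator mS
        have mS' : MeasurableSet {y | w y = ⊤} := hwm (measurableSet_singleton ⊤)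
        calc fib W f1 x ≤ fib W (fun y => {y | w y = ⊤}.indicator f1 y +
              {y | w y < ⊤}.indicator 1 y) x := by
              refine fib_mono (fun y => ?_) x
              by_cases hy : w y = ⊤
              · rw [indicator_of_mem (show y ∈ {y | w y = ⊤} from hy)]
                exact le_self_add
              · rw [indicator_of_mem (show y ∈ {y | w y < ⊤} from lt_top_iff_ne_top.mpr hy)]
                exact (l1 y).trans le_add_self
          _ = fib W ({y | w y = ⊤}.indicator f1) x +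
                fib W ({y | w y < ⊤}.indicator 1) x := fib_add_right mI x
          _ ≤ _ := by gcongr
      have h7 : fib W ({y | w y = ⊤}.indicator f1) x ≠ 0 := by
        intro h8
        rw [h8, zero_add] at h6
        exact absurd h5 (not_lt.mpr h6)
      have h8 : ⊤ * fib W ({y | w y = ⊤}.indicator f1) x ≤
          fib W (fun x => w x * f1 x) x := by
        have mS' : MeasurableSet {y | w y = ⊤} := hwm (measurableSet_singleton ⊤)
        rw [← fib_mul (inv_const W ⊤) (mh.indicator mS') x]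
        refine fib_mono (fun y => ?_) x
        by_cases hy : w y = ⊤
        · rw [indicator_of_mem (show y ∈ {y | w y = ⊤} from hy), hy]
        · rw [indicator_of_notMem (show y ∉ {y | w y = ⊤} from hy), mul_zero]
          exact bot_le
      rw [ENNReal.top_mul h7, top_le_iff] at h8
      rw [h8]
      exact le_top
  · have s4 : m * ENNReal.ofReal (t * (1 + ε)) + m * ENNReal.ofReal ε ≤
        fib W (fun x => w x * f1 x) x + m * ENNReal.ofReal ε := by
      refine le_trans ?_ s2
      rw [← mul_add, ← ENNReal.ofReal_add (by positivity) hε]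
      gcongr
    exact (ENNReal.add_le_add_iff_right (ENNReal.mul_ne_top hm ENNReal.ofReal_ne_top)).mp s4

/-- health and flatness: `t` of the weighted mass inside `C` is long -/
def HF (t : ℝ) (K : Set E) (v : E) (w : E → ℝ≥0∞) (C : Set E) (W : Submodule ℝ E) (x : E) : Prop :=
  ∃ ε a : ℝ, 0 ≤ ε ∧ 23 / 50 * (t * (1 + ε) + ε) ≤ a - 11 / 20 ∧ Hea K v a C W x ∧ FlatAt ε w W x

/-- stopped labels: health `4/5` and flatness `1/40` -/
lemma HF.deep {K : Set E} {v : E} {w : E → ℝ≥0∞} {C : Set E} {W : Submodule ℝ E} {x : E}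
    (h : Hea K v (4 / 5) C W x) (hf : FlatAt (1 / 40) w W x) : HF (1 / 2) K v w C W x :=
  ⟨1 / 40, 4 / 5, by norm_num, by norm_num, h, hf⟩

/-- roots: health `4/5` and flatness `1/40` -/
lemma HF.root45 {K : Set E} {v : E} {w : E → ℝ≥0∞} {C : Set E} {W : Submodule ℝ E} {x : E}
    (h : Hea K v (4 / 5) C W x) (hf : FlatAt (1 / 40) w W x) : HF (1 / 4) K v w C W x :=
  ⟨1 / 40, 4 / 5, by norm_num, by norm_num, h, hf⟩

/-- roots: health `2/3` and flatness `1/400` -/
lemma HF.root23 {K : Set E} {v : E} {w : E → ℝ≥0∞} {C : Set E} {W : Submodule ℝ E} {x : E}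
    (h : Hea K v (2 / 3) C W x) (hf : FlatAt (1 / 400) w W x) : HF (1 / 4) K v w C W x :=
  ⟨1 / 400, 2 / 3, by norm_num, by norm_num, h, hf⟩

/-- a weight which is a function of the label is flat -/
lemma flatAt_of_inv {w : E → ℝ≥0∞} {W : Submodule ℝ E} (hw : Inv W w) (x : E) {ε : ℝ}
    (hε : 0 ≤ ε) : FlatAt ε w W x := by
  refine ⟨w x, ?_, ?_⟩
  · have : fib W ({y | w y < w x}.indicator 1) x = 0 := by
      have h0 : fib W ({y | w y < w x}.indicator (1 : E → ℝ≥0∞)) x = fib W (fun _ => 0) x := by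
        refine fib_congr_fibre fun y hy => ?_
        rw [indicator_of_notMem]
        simp only [mem_setOf_eq, not_lt]
        rw [hw.eq_of hy]
      rw [h0, fib_const]
    rw [this]
    exact bot_le
  · have : fib W w x = fib W (fun _ => w x) x := fib_congr_fibre fun y hy => hw.eq_of hy
    rw [this, fib_const]
    calc w x = 1 * w x := (one_mul _).symm
      _ ≤ ENNReal.ofReal (1 + ε) * w x := by
        gcongr
        rw [← ENNReal.ofReal_one]
        exact ENNReal.ofReal_le_ofReal (by linarith)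

variable {K : Set E} {v : E} {w : E → ℝ≥0∞}

lemma HF.le {t : ℝ} (ht : 0 ≤ t) (hv : v ≠ 0) (hv' : ‖v‖ ≤ 1 / 100) (hK : IsClosed K)
    (hKc : Convex ℝ K) (hb : ∃ R : ℝ, ∀ x ∈ K, |⟪v, x⟫| ≤ R) (hwm : Measurable w) {C : Set E}
    (hC : MeasurableSet C) (hCi : InvS (ℝ ∙ v)ᗮ C) {W : Submodule ℝ E} (hW : W ≤ (ℝ ∙ v)ᗮ)
    {x : E} (h : HF t K v w C W x) :
    ENNReal.ofReal t * fib W (C.indicator (fun x => w x * hl K v 0 x)) x ≤
      fib W (C.indicator (fun x => w x * hl K v (1 / 2) x)) x := by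
  obtain ⟨ε, a, hε, hat, hh, hf⟩ := h
  have e : ∀ ℓ, C.indicator (fun x => w x * hl K v ℓ x) = fun y => w y * C.indicator (hl K v ℓ) y :=
    fun ℓ => funext fun y => mul_indicator_eq w _ C y
  rw [e, e]
  have l : ∀ ℓ, ∀ y, C.indicator (hl K v ℓ) y ≤ 1 := fun ℓ y =>
    (indicator_le_self' (fun _ _ => bot_le) y).trans (hl_le_one hv K ℓ y)
  refine flat_gen hwm ((measurable_hl hv hK hb (1 / 2)).indicator hC) (l 0) (l (1 / 2)) hε ht hat
    hf ?_
  rcases hh with hh | hh
  · exact hh.trans (fib_star_le_long hv hv' hK hKc hb hC hCi hW x)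
  · exact hh.trans (fib_body_le_long hv hK hKc hb hC hCi hW x)

/-- health and flatness along the path of a point -/
def HKW (K : Set E) (v : E) (w : E → ℝ≥0∞) : KTree E → E → Prop
  | KTree.leaf, _ => True
  | KTree.node W D Z cls sub, x => x ∉ Z →
      ((x ∈ D ∨ cls x ≠ 0) → HF (1 / 2) K v w (sub 0).frz W x) ∧
      (x ∉ D → cls x ≠ 0 → HF (1 / 4) K v w (sub (cls x)).frz W x) ∧
      (x ∉ D → HKW K v w (sub (cls x)) x)

lemma HKW.hlt (hv : v ≠ 0) (hv' : ‖v‖ ≤ 1 / 100) (hK : IsClosed K) (hKc : Convex ℝ K)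
    (hb : ∃ R : ℝ, ∀ x ∈ K, |⟪v, x⟫| ≤ R) (hwm : Measurable w) : ∀ {T : KTree E}
    {W0 : Submodule ℝ E} (_ : T.Valid W0) (_ : T.Below (ℝ ∙ v)ᗮ) {x : E} (_ : HKW K v w T x),
    KTree.hlt (fun x => w x * hl K v 0 x) (fun x => w x * hl K v (1 / 2) x) T x
  | KTree.leaf, _, _, _, _, _ => trivial
  | KTree.node W D Z cls sub, W0, h, hbl, x, hx => by
    obtain ⟨h1, hD, hcD, hcZ, hZ, hZc, hcls, hci, hsub⟩ := h
    intro hxZ
    obtain ⟨a, b, c⟩ := hx hxZ
    refine ⟨fun h => ?_, fun h h' => ?_, fun h => ?_⟩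
    · have := (a h).le (by norm_num) hv hv' hK hKc hb hwm (isClosed_frz (hsub 0)).measurableSet
        (line_frz (hsub 0) (hbl.2 0)) hbl.1
      unfold Long
      rw [← ofReal_half]
      exact this
    · have := (b h h').le (by norm_num) hv hv' hK hKc hb hwm
        (isClosed_frz (hsub _)).measurableSet (line_frz (hsub _) (hbl.2 _)) hbl.1
      unfold Root
      rw [← ofReal_quarter]
      exact this
    · exact HKW.hlt hv hv' hK hKc hb hwm (hsub _) (hbl.2 _) (c h)

/-- **The weighted nested star theorem for class dependent flags with killed labels.** -/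
theorem star_killW {c : ℝ} (hc0 : 0 ≤ c) (hc : c < 1 / 2) (hw : Weight c w)
    (hwi : Inv (ℝ ∙ v)ᗮ w) (hv : v ≠ 0) (hv' : ‖v‖ ≤ 1 / 3000) (hK : IsClosed K)
    (hKc : Convex ℝ K) (hb : ∃ R : ℝ, ∀ x ∈ K, |⟪v, x⟫| ≤ R) {W0 : Submodule ℝ E}
    (hW0 : W0 ≤ (ℝ ∙ v)ᗮ) {T : KTree E} (hT : T.Valid W0) (hTb : T.Below (ℝ ∙ v)ᗮ) (x0 : E)
    (hh : ∀ y, W0.starProjection y = W0.starProjection x0 → HKW K v w T y)
    (hroot : HF (1 / 4) K v w T.frz W0 x0) :
    fib W0 (fun x => w x * ((K \ star K v) ∩ T.reg).indicator 1 x) x0 ≤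
      ENNReal.ofReal (10000 * ‖v‖) *
        fib W0 (fun x => w x * ((star K v \ K) ∩ T.reg).indicator 1 x) x0 := by
  have hδ : 0 < ‖v‖ := norm_pos_iff.mpr hv
  have hreg := regC_body hw hv (by linarith) hK hKc hb
  have hΘ : 0 < 4 * ‖v‖ := by linarith
  have hΘ1 : 4 * ‖v‖ ≤ 1 / 704 := by linarith
  have hR := hroot.le (by norm_num) hv (by linarith) hK hKc hb hw.meas
    (isClosed_frz hT).measurableSet (line_frz hT hTb) hW0
  have key := kill_ineq hreg.m0 hreg.mT hreg.m1 (flagIneqC hc0 hc hΘ hΘ1 hreg) hT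
    (fun y hy => HKW.hlt hv (by linarith) hK hKc hb hw.meas hT hTb (hh y hy))
    (by unfold Root; rw [← ofReal_quarter]; exact hR)
  have hfin := (hreg.toTIn hc0 hc (by positivity) (by linarith)).fib_ne_top W0 x0
  have key' : IneqF (ENNReal.ofReal (704 * (4 * ‖v‖))) (fun x => w x * hl K v 0 x)
      (fun x => w x * hl K v (2 * ‖v‖) x) (fun x => w x * hl K v (1 / 2) x) W0 x0 T.reg := by
    unfold Ineq at key
    rw [add_mul, one_mul] at key
    exact key
  have h2 := transferW hv (by linarith) hK hKc hb hW0 (measurableSet_reg hT) (line_reg hT hTb)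
    hw.meas hwi x0 (k := 704 * (4 * ‖v‖)) (by positivity) hfin key'
  refine h2.trans (mul_le_mul' (ENNReal.ofReal_le_ofReal ?_) le_rfl)
  nlinarith

/-- the same with the cut by the ball; the weight and the region in product form -/
theorem star_killW_cut {c : ℝ} (hc0 : 0 ≤ c) (hc : c < 1 / 2) (hw : Weight c w)
    (hwi : Inv (ℝ ∙ v)ᗮ w) (hv : v ≠ 0) (hv' : ‖v‖ ≤ 1 / 3000) (hK : IsClosed K)
    (hKc : Convex ℝ K) {R : ℝ} (hKR : K ⊆ Metric.closedBall 0 R) {W0 : Submodule ℝ E}
    (hW0 : W0 ≤ (ℝ ∙ v)ᗮ) {T : KTree E} (hT : T.Valid W0) (hTb : T.Below (ℝ ∙ v)ᗮ) (x0 : E)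
    (hh : ∀ y, W0.starProjection y = W0.starProjection x0 → HKW K v w T y)
    (hroot : HF (1 / 4) K v w T.frz W0 x0)
    {p Lam : ℝ} (hp0 : 0 ≤ p) (hp : p ≤ 1 / 4) (hL : 1 ≤ Lam)
    (hline : ∀ x ∈ T.reg, w x ≠ 0 → OnLine K v R p Lam x) :
    fib W0 (fun y => (w y * T.reg.indicator 1 y) *
        (K \ (star K v ∩ Metric.closedBall 0 R)).indicator 1 y) x0 ≤
      ENNReal.ofReal (20000 * ‖v‖) *
        fib W0 (fun y => (w y * T.reg.indicator 1 y) *
          ((star K v ∩ Metric.closedBall 0 R) \ K).indicator 1 y) x0 := by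
  have hδ : 0 < ‖v‖ := norm_pos_iff.mpr hv
  have hb : ∃ R : ℝ, ∀ x ∈ K, |⟪v, x⟫| ≤ R := ⟨‖v‖ * R, fun x hx =>
    (abs_real_inner_le_norm v x).trans
      (mul_le_mul_of_nonneg_left (by simpa using hKR hx) (norm_nonneg v))⟩
  have h1 := star_killW hc0 hc hw hwi hv hv' hK hKc hb hW0 hT hTb x0 hh hroot
  have hrm := measurableSet_reg hT
  have hri := line_reg hT hTb
  have e : ∀ A : Set E, (fun y => (w y * T.reg.indicator (1 : E → ℝ≥0∞) y) * A.indicator 1 y)
      = fun y => w y * (A ∩ T.reg).indicator 1 y := by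
    intro A
    funext y
    rw [mul_assoc]
    congr 1
    by_cases h : y ∈ T.reg
    · by_cases h' : y ∈ A
      · have h2 : y ∈ A ∩ T.reg := ⟨h', h⟩
        rw [indicator_of_mem h, indicator_of_mem h', indicator_of_mem h2]; simp
      · rw [indicator_of_mem h, indicator_of_notMem h', indicator_of_notMem (fun h2 => h' h2.1)]
        simp
    · rw [indicator_of_notMem h, indicator_of_notMem (fun h2 : y ∈ A ∩ T.reg => h h2.2)]; simp
  have hinv : Inv (Hp v) (fun y => w y * T.reg.indicator (1 : E → ℝ≥0∞) y) := by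
    have hr : Inv (Hp v) (T.reg.indicator (1 : E → ℝ≥0∞)) := by
      intro x u hu
      by_cases h : x ∈ T.reg
      · rw [indicator_of_mem h, indicator_of_mem ((hri x u hu).mpr h)]; rfl
      · rw [indicator_of_notMem h, indicator_of_notMem (fun h' => h ((hri x u hu).mp h'))]
    exact Inv.mul hwi hr
  have h2 := cut_fib hK hKc hKR hδ (by linarith) hp0 hp hL hW0 hinv
    (hw.meas.mul (measurable_one.indicator hrm)) (fun x hx => by
      have h3 : x ∈ T.reg := by
        by_contra hcon
        exact hx (by simp only [indicator_of_notMem hcon, mul_zero])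
      have h4 : w x ≠ 0 := fun h5 => hx (by simp only [h5, zero_mul])
      exact hline x h3 h4) x0
    (c := ENNReal.ofReal (10000 * ‖v‖)) (by rw [e, e]; exact h1)
  refine h2.trans (le_of_eq ?_)
  congr 1
  rw [show (2 : ℝ≥0∞) = ENNReal.ofReal 2 by norm_num, ← ENNReal.ofReal_mul (by norm_num)]
  congr 1
  ring

end Vale.Agent.P262.H292
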